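import Vale.Agent.P201.Reduction

/-!
Zero divisors of group algebras: for a prime `p` and a group `G`, if the group algebra of `G`
over the algebraic closure of `ZMod p` has no zero divisors, then neither has `K[G]` for any
field `K` of characteristic `p` or `0`.
-/

namespace Vale.Agent.Results.P201.ReduceToClosureOfFp

universe u w

theorem result :
    ∀ (p : ℕ) [Fact p.Prime] (G : Type w) [Group G],
      NoZeroDivisors (MonoidAlgebra (AlgebraicClosure (ZMod p)) G) →
        ∀ (K : Type u) [Field K], (CharP K p ∨ CharZero K) →
          NoZeroDivisors (MonoidAlgebra K G) :=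
  fun p _ G _ hyp K _ hK => Vale.Agent.P201.nzd_of_algebraicClosure p G hyp K hK

end Vale.Agent.Results.P201.ReduceToClosureOfFp
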